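import Vale.Agent.P241.H175.Sharp

/-!
# P241: `X#` is null for products of rays

* `Ray H B b` : an `H`-fixed proper ray of `B` starting at `b`;
* `nn_of_map` : `NN B b P` for a `G`-space `P` with a `G`-map to `G/H`;
* `ghtp_id_sharp` : `X#` is contractible if all points of `X` are fixed points;
* `nn_sharp` : for a finite `G`-cell space `X` there is a product `(B, b)` of `G`-spaces with
  rays such that `NN B b X#`.
-/

open CategoryTheory MonoidalCategory OnePoint Topology Filter

namespace Vale.Agent.P241.H175

open Vale.Agent.P251 Vale.Agent.P251.St Vale.Agent.P251.G Vale.Agent.P251.G.LC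
open Vale.Agent.P241.St Vale.Agent.P241.H486

variable {G : Type} [Group G] {X Y Z A B C : GSpace G}

/-! ### contractibility -/

theorem tendsto_addNN :
    Tendsto (fun p : NNReal × NNReal => p.1 + p.2) (cocompact (NNReal × NNReal))
      (cocompact NNReal) := by
  rw [← Filter.coprod_cocompact, cocompact_eq_atTop, Filter.coprod]
  refine tendsto_sup.2 ⟨?_, ?_⟩
  · exact tendsto_atTop_mono (fun p => le_self_add) tendsto_comap
  · exact tendsto_atTop_mono (fun p => le_add_self) tendsto_comap

/-- the addition `[0, ∞) × [0, ∞) ⟶ [0, ∞)` -/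
def addHH : HH ⊗ HH ⟶ HH :=
  ofProper (X := LC.of (NNReal × NNReal)) (fun p => p.1 + p.2) (by fun_prop) tendsto_addNN

theorem app_addHH_coe (s t : NNReal) :
    app addHH (LC.smash (s : OnePoint NNReal) (t : OnePoint NNReal)) =
      ((s + t : NNReal) : OnePoint NNReal) := rfl

/-- `X#` is contractible if all points of `X` are fixed points. -/
theorem ghtp_id_sharp (hX : ∀ (g : G) (x : X.carrier), g • x = x) :
    GHtp (X := sharp X) (Y := sharp X) (𝟙 _) 0 := by
  have hX' : ∀ (g : G) (x : X.und.Pt), X.smul g x = x := by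
    intro g x
    induction x using OnePoint.rec with
    | infty => rfl
    | coe x => rw [smul_coe, hX]
  have hS : ∀ (g : G) (p : (sharp X).und.Pt), (sharp X).smul g p = p := by
    intro g p
    obtain ⟨x, t, h, -⟩ := exists_rep (X := X) p
    apply injective_mι
    rw [smul_rep h, hX', h]
  let F : toLC (sharp X).und ⊗ II ⟶ toLC X.und ⊗ HH :=
    mι X ▷ II ≫ (α_ (toLC X.und) HH II).hom ≫ toLC X.und ◁ (HH ◁ coneMap' ≫ addHH)
  have hF : ∀ (p : (sharp X).und.Pt) (x : X.und.Pt) (t : NNReal) (s : unitInterval),
      app (mι X) p = LC.smash x (t : OnePoint NNReal) →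
      app F (LC.smash p (s : OnePoint unitInterval)) = LC.smash x (app addHH
        (LC.smash (t : OnePoint NNReal) (app coneMap' (s : OnePoint unitInterval)))) := by
    intro p x t s h
    change app (mι X ▷ II ≫ (α_ (toLC X.und) HH II).hom ≫
      toLC X.und ◁ (HH ◁ coneMap' ≫ addHH)) (LC.smash p (s : OnePoint unitInterval)) = _
    rw [app_comp, app_comp, app_whiskerRight_smash, h, app_associator_smash,
      app_whiskerLeft_smash, app_comp, app_whiskerLeft_smash]
  have hr : ∀ w, app F w ∈ Set.range (app (mι X)) := by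
    intro w
    obtain ⟨p, s, rfl⟩ := smash_coe_surjective (X := (sharp X).carrier) (Y := unitInterval) w
    obtain ⟨x, t, h, -⟩ := exists_rep (X := X) p
    refine (congrArg (· ∈ Set.range (app (mι X))) (hF p x t s h)).mpr ?_
    generalize app addHH
        (LC.smash (t : OnePoint NNReal) (app coneMap' (s : OnePoint unitInterval))) = z
    induction z using OnePoint.rec with
    | infty =>
      rw [smash_infty_right]
      exact infty_mem_range_app _
    | coe z => exact (mem_range_mι x z).2 (Or.inr fun g => hX' g x)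
  let K : toLC (sharp X).und ⊗ II ⟶ toLC (sharp X).und := factor (mι X) (injective_mι X) F hr
  have hK : ∀ (p : (sharp X).und.Pt) (x : X.und.Pt) (t : NNReal) (s : unitInterval),
      app (mι X) p = LC.smash x (t : OnePoint NNReal) →
      app (mι X) (app K (LC.smash p (s : OnePoint unitInterval))) = LC.smash x (app addHH
        (LC.smash (t : OnePoint NNReal) (app coneMap' (s : OnePoint unitInterval)))) :=
    fun p x t s h => (app_factor (mι X) (injective_mι X) F hr _).trans (hF p x t s h)
  refine GHtp.symm (X := sharp X) (Y := sharp X)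
    ⟨fun s p => app K (LC.smash p (s : OnePoint unitInterval)),
    ⟨isHtpy_of_hom (X := (sharp X).und) (Y := (sharp X).und) K, ?_⟩, ?_, ?_⟩
  · intro s g p
    change app K (LC.smash ((sharp X).smul g p) (s : OnePoint unitInterval)) =
      (sharp X).smul g (app K (LC.smash p (s : OnePoint unitInterval)))
    rw [hS, hS]
  · funext p
    obtain ⟨x, t, h, -⟩ := exists_rep (X := X) p
    apply injective_mι
    rw [hK _ _ _ 0 h, app_coneMap_zero, smash_infty_right, app_infty, smash_infty_right, app_zero,
      app_infty]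
  · funext p
    obtain ⟨x, t, h, -⟩ := exists_rep (X := X) p
    apply injective_mι
    rw [hK _ _ _ 1 h, app_coneMap_one, app_addHH_coe, add_zero, app_id, h]

/-! ### rays -/

/-- the action of `g` as a morphism -/
def actHom (X : GSpace G) (g : G) : toLC X.und ⟶ toLC X.und :=
  (ofHomeo (X := toLC X.und) (Y := toLC X.und) (Homeomorph.smul g)).hom

theorem app_actHom (g : G) (x : X.und.Pt) : app (actHom X g) x = X.smul g x := by
  induction x using OnePoint.rec with
  | infty => exact app_infty _
  | coe x => rfl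

/-- an `H`-fixed proper ray of `B` which starts at `b` -/
def Ray (H : Subgroup G) (B : GSpace G) (b : B.carrier) : Prop :=
  ∃ ρ : HH ⟶ toLC B.und, app ρ ((0 : NNReal) : OnePoint NNReal) = (b : OnePoint B.carrier) ∧
    ∀ h ∈ H, ∀ s : OnePoint NNReal, B.smul h (app ρ s) = app ρ s

/-- A `G`-space with a `G`-map to `G/H` is null for a `G`-space with an `H`-fixed ray. -/
theorem nn_of_map [Finite G] {H : Subgroup G} {b : B.carrier} (hb : Fixd B b) (hr : Ray H B b)
    {P : GSpace G} (π : P.carrier → G ⧸ H)
    (hπ : @Continuous P.carrier (G ⧸ H) _ ⊥ π) (hπG : ∀ (g : G) (p : P.carrier),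
      π (g • p) = g • π p) : NN B b P := by
  obtain ⟨ρ, hρ0, hρ⟩ := hr
  let : TopologicalSpace (G ⧸ H) := ⊥
  have : DiscreteTopology (G ⧸ H) := ⟨rfl⟩
  have : LocallyCompactSpace (G ⧸ H) := lc_of_discrete _
  have : CompactSpace (G ⧸ H) := Finite.compactSpace
  let D : LC := LC.of (G ⧸ H)
  let δ : toLC P.und ⟶ D ⊗ toLC P.und :=
    ofProper (X := toLC P.und) (Y := LC.of ((G ⧸ H) × P.carrier)) (fun p => (π p, p))
      (hπ.prodMk continuous_id) (by
        rw [← Filter.coprod_cocompact (X := G ⧸ H) (Y := P.carrier)]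
        have h1 : Tendsto (fun p : P.carrier => (π p, p)) (cocompact P.carrier)
            (comap Prod.snd (cocompact P.carrier)) := tendsto_comap_iff.2 tendsto_id
        exact h1.mono_right le_sup_right)
  have hδ : ∀ p : P.carrier, app δ (p : OnePoint P.carrier) =
      LC.smash ((π p : G ⧸ H) : OnePoint (G ⧸ H)) (p : OnePoint P.carrier) := fun _ => rfl
  let A : D ⊗ II ⟶ toLC B.und :=
    ofCompactification (X := LC.of ((G ⧸ H) × unitInterval)) (Y := toLC B.und)
      (K := (G ⧸ H) × unitInterval) id IsOpenEmbedding.id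
      (fun q => app (actHom B q.1.out) (app ρ (app coneMap' (q.2 : OnePoint unitInterval))))
      (by
        rw [continuous_prod_of_discrete_left]
        intro c
        change Continuous fun s : unitInterval =>
          app (actHom B c.out) (app ρ (app coneMap' (s : OnePoint unitInterval)))
        exact (continuous_app (actHom B c.out)).comp ((continuous_app ρ).comp
          ((continuous_app coneMap').comp OnePoint.continuous_coe)))
      (fun k hk => absurd ⟨k, rfl⟩ hk)
  have hA : ∀ (c : G ⧸ H) (s : unitInterval),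
      app A (LC.smash (c : OnePoint (G ⧸ H)) (s : OnePoint unitInterval)) =
        B.smul c.out (app ρ (app coneMap' (s : OnePoint unitInterval))) :=
    fun c s => app_actHom _ _
  have hAG : ∀ (g : G) (c : G ⧸ H) (s : unitInterval),
      app A (LC.smash ((g • c : G ⧸ H) : OnePoint (G ⧸ H)) (s : OnePoint unitInterval)) =
        B.smul g (app A (LC.smash (c : OnePoint (G ⧸ H)) (s : OnePoint unitInterval))) := by
    intro g c s
    rw [hA, hA, ← smul_mul]
    have h1 : (g • c : G ⧸ H) = QuotientGroup.mk (g * c.out) := by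
      conv_lhs => rw [← QuotientGroup.out_eq' c]
      rfl
    obtain ⟨h, hh⟩ := QuotientGroup.mk_out_eq_mul H (g * c.out)
    rw [h1, hh, smul_mul B (g * c.out) (h : G), hρ h h.2]
  let K : toLC P.und ⊗ II ⟶ toLC (B.prod P).und :=
    (δ ▷ II ≫ (shuf D (toLC P.und)).hom ≫ A ▷ toLC P.und :
      toLC P.und ⊗ II ⟶ toLC B.und ⊗ toLC P.und)
  have hK : ∀ (p : P.carrier) (s : unitInterval),
      app K (LC.smash (p : OnePoint P.carrier) (s : OnePoint unitInterval)) =
        LC.smash (app A (LC.smash ((π p : G ⧸ H) : OnePoint (G ⧸ H))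
          (s : OnePoint unitInterval))) (p : OnePoint P.carrier) := by
    intro p s
    change app (δ ▷ II ≫ (shuf D (toLC P.und)).hom ≫ A ▷ toLC P.und)
      (LC.smash (p : OnePoint P.carrier) (s : OnePoint unitInterval)) = _
    rw [app_comp, app_comp, app_whiskerRight_smash, hδ, app_shuf_coe, app_whiskerRight_smash]
  refine GHtp.symm (X := P) (Y := B.prod P)
    ⟨fun s p => app K (LC.smash p (s : OnePoint unitInterval)),
    ⟨isHtpy_of_hom (X := P.und) (Y := (B.prod P).und) K, ?_⟩, ?_, ?_⟩
  · intro s g p
    induction p using OnePoint.rec with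
    | infty =>
      change app K (LC.smash ∞ (s : OnePoint unitInterval)) =
        (B.prod P).smul g (app K (LC.smash ∞ (s : OnePoint unitInterval)))
      have h1 : app K (LC.smash (∞ : OnePoint P.carrier) (s : OnePoint unitInterval)) = ∞ :=
        app_infty K
      rw [h1]
      rfl
    | coe p =>
      refine (hK (g • p) s).trans ?_
      rw [hπG, hAG]
      exact (smul_prod B P g _ _).symm.trans (congrArg ((B.prod P).smul g) (hK p s).symm)
  · funext p
    induction p using OnePoint.rec with
    | infty => exact app_infty K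
    | coe p =>
      refine (hK p 0).trans ?_
      rw [hA, app_coneMap_zero, app_infty]
      rfl
  · funext p
    induction p using OnePoint.rec with
    | infty => exact app_infty K
    | coe p =>
      refine (hK p 1).trans ?_
      rw [hA, app_coneMap_one, hρ0, smul_coe, hb]
      rfl

/-! ### the induction -/

/-- **`X#` is null** for a product of `G`-spaces with rays. -/
theorem nn_sharp [Finite G] (P : ∀ B : GSpace G, B.carrier → Prop)
    (hfix : ∀ (B : GSpace G) (b : B.carrier), P B b → Fixd B b)
    (hprod : ∀ (B B' : GSpace G) (b : B.carrier) (b' : B'.carrier), P B b → P B' b' →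
      P (B.prod B') (b, b'))
    (hone : ∃ (B : GSpace G) (b : B.carrier), P B b)
    (hray : ∀ H : Subgroup G, H ≠ ⊤ → ∃ (B : GSpace G) (b : B.carrier), P B b ∧ Ray H B b)
    {X : GSpace G} (hX : GFC G X) :
    ∃ (B : GSpace G) (b : B.carrier), P B b ∧ NN B b (sharp X) := by
  induction hX with
  | empty =>
    obtain ⟨B, b, hP⟩ := hone
    refine ⟨B, b, hP, GHtp.of_eq (eqv_inj (hfix B b hP)) ?_⟩
    apply hom_ext
    intro p
    exact (p.1.1 : Empty).elim
  | cell V n =>
    by_cases hV : V = ⊤
    · obtain ⟨B, b, hP⟩ := hone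
      refine ⟨B, b, hP, NN.of_contractible (hfix B b hP) (ghtp_id_sharp ?_)⟩
      subst hV
      intro g x
      have := QuotientGroup.subsingleton_quotient_top (G := G)
      exact Prod.ext (Subsingleton.elim (α := G ⧸ (⊤ : Subgroup G)) _ _) rfl
    · obtain ⟨B, b, hP, hr⟩ := hray V hV
      refine ⟨B, b, hP, nn_of_map (H := V) (hfix B b hP) hr
        (fun p : (sharp (cell G V n)).carrier => p.1.1.1) ?_ fun g p => rfl⟩
      let : TopologicalSpace (G ⧸ V) := ⊥
      have h1 : Continuous (fun p : (sharp (cell G V n)).carrier => p.1.1) :=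
        continuous_fst.comp continuous_subtype_val
      exact Continuous.comp (continuous_fst (X := G ⧸ V) (Y := Fin n → ℝ)) h1
  | hequiv _ h ih =>
    obtain ⟨B, b, hP, hN⟩ := ih
    exact ⟨B, b, hP, hN.of_ghequiv (hfix B b hP) (ghequiv_sharp h)⟩
  | @ext A B C i q hi hq hcof hquot _ _ ihA ihC =>
    obtain ⟨B₁, b₁, hP₁, hN₁⟩ := ihA
    obtain ⟨B₂, b₂, hP₂, hN₂⟩ := ihC
    have hi : Eqv (X := A) (Y := B) (toHom i) := hi
    have hq : Eqv (X := B) (Y := C) (toHom q) := hq
    refine ⟨B₂.prod B₁, (b₂, b₁), hprod _ _ _ _ hP₂ hP₁, ?_⟩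
    exact NN.ext (i := ofHom (sharpHom (toHom i) hi)) (q := ofHom (sharpHom (toHom q) hq))
      (hfix _ _ hP₁) (hfix _ _ hP₂) (eqv_sharpHom hi) (eqv_sharpHom hq) (gcofib_sharp hi hcof)
      (isQuot_sharp hi hq (injective_of_gcofib hcof) hquot) hN₁ hN₂

end Vale.Agent.P241.H175
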