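import Vale.Agent.P241.H486.Ndr

/-!
# P241: calculus of equivariant null-homotopies

* `GHomotopic` is an equivalence relation compatible with the composition of `G`-maps;
* `inj B b Y` : the map `y ↦ (b, y)`, `Y⁺ → (B × Y)⁺`;
* `NN B b Y` : `inj B b Y` is `G`-null-homotopic;
* `NN.of_retract`, `NN.of_ghequiv`, `NN.mapB`, `NN.ext`.
-/

open CategoryTheory MonoidalCategory OnePoint Topology

namespace Vale.Agent.P241.H175

open Vale.Agent.P251 Vale.Agent.P251.St Vale.Agent.P251.G Vale.Agent.P251.G.LC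
open Vale.Agent.P241.St Vale.Agent.P241.H486

variable {G : Type} [Group G]

/-! ### equivariant homotopies -/

section htpy

variable {W X Y Z : GSpace G}

/-- a pointed `G`-map, as a morphism of `LC` -/
abbrev Eqv (f : toLC X.und ⟶ toLC Y.und) : Prop := IsGMap (X := X) (Y := Y) (app f)

/-- `G`-homotopic morphisms -/
abbrev GHtp (f g : toLC X.und ⟶ toLC Y.und) : Prop := GHomotopic (X := X) (Y := Y) (app f) (app g)

theorem Eqv.comp {f : toLC X.und ⟶ toLC Y.und} {g : toLC Y.und ⟶ toLC Z.und}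
    (hf : Eqv (X := X) (Y := Y) f) (hg : Eqv (X := Y) (Y := Z) g) :
    Eqv (X := X) (Y := Z) (f ≫ g) := fun x a => by
  rw [app_comp, app_comp, hf, hg]

theorem Eqv.id : Eqv (X := X) (Y := X) (𝟙 (toLC X.und)) := fun _ _ => rfl

theorem Eqv.zero : Eqv (X := X) (Y := Y) (0 : toLC X.und ⟶ toLC Y.und) := fun _ _ => rfl

theorem GHtp.refl {f : toLC X.und ⟶ toLC Y.und} (hf : Eqv (X := X) (Y := Y) f) :
    GHtp (X := X) (Y := Y) f f :=
  ⟨fun _ => app f, ⟨⟨(continuous_app f).comp continuous_snd, fun _ => app_infty f⟩,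
    fun _ => hf⟩, rfl, rfl⟩

theorem GHtp.of_eq {f g : toLC X.und ⟶ toLC Y.und} (hf : Eqv (X := X) (Y := Y) f) (h : f = g) :
    GHtp (X := X) (Y := Y) f g := h ▸ GHtp.refl hf

theorem GHtp.symm {f g : toLC X.und ⟶ toLC Y.und} (h : GHtp (X := X) (Y := Y) f g) :
    GHtp (X := X) (Y := Y) g f := by
  obtain ⟨H, ⟨⟨hc, hi⟩, hG⟩, h0, h1⟩ := h
  refine ⟨fun t => H (unitInterval.symm t), ⟨⟨?_, fun t => hi _⟩, fun t => hG _⟩, ?_, ?_⟩
  · exact hc.comp ((unitInterval.continuous_symm.comp continuous_fst).prodMk continuous_snd)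
  · change H (unitInterval.symm 0) = _
    rw [unitInterval.symm_zero, h1]
  · change H (unitInterval.symm 1) = _
    rw [unitInterval.symm_one, h0]

theorem GHtp.trans {f g h : toLC X.und ⟶ toLC Y.und} (h1 : GHtp (X := X) (Y := Y) f g)
    (h2 : GHtp (X := X) (Y := Y) g h) : GHtp (X := X) (Y := Y) f h := by
  obtain ⟨H, ⟨⟨hc, hi⟩, hG⟩, h0, h1⟩ := h1
  obtain ⟨K, ⟨⟨kc, ki⟩, kG⟩, k0, k1⟩ := h2
  let H' : ContinuousMap.Homotopy (⟨app f, continuous_app f⟩ : C(X.und.Pt, Y.und.Pt))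
      ⟨app g, continuous_app g⟩ :=
    ⟨⟨fun p => H p.1 p.2, hc⟩, fun x => congrFun h0 x, fun x => congrFun h1 x⟩
  let K' : ContinuousMap.Homotopy (⟨app g, continuous_app g⟩ : C(X.und.Pt, Y.und.Pt))
      ⟨app h, continuous_app h⟩ :=
    ⟨⟨fun p => K p.1 p.2, kc⟩, fun x => congrFun k0 x, fun x => congrFun k1 x⟩
  have key : ∀ (t : unitInterval), ∃ s : unitInterval, (∀ x, (H'.trans K') (t, x) = H s x) ∨
      ∀ x, (H'.trans K') (t, x) = K s x := by
    intro t
    by_cases ht : (t : ℝ) ≤ 1 / 2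
    · refine ⟨⟨2 * t, (unitInterval.mul_pos_mem_iff zero_lt_two).2 ⟨t.2.1, ht⟩⟩, Or.inl ?_⟩
      intro x
      rw [ContinuousMap.Homotopy.trans_apply, dif_pos ht]
      rfl
    · refine ⟨⟨2 * t - 1, unitInterval.two_mul_sub_one_mem_iff.2 ⟨(not_le.1 ht).le, t.2.2⟩⟩,
        Or.inr ?_⟩
      intro x
      rw [ContinuousMap.Homotopy.trans_apply, dif_neg ht]
      rfl
  refine ⟨fun t x => (H'.trans K') (t, x), ⟨⟨(H'.trans K').continuous_toFun, ?_⟩, ?_⟩, ?_, ?_⟩
  · intro t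
    obtain ⟨s, hs | hs⟩ := key t
    · exact (hs ∞).trans (hi s)
    · exact (hs ∞).trans (ki s)
  · intro t g x
    obtain ⟨s, hs | hs⟩ := key t
    · exact (hs _).trans ((hG s g x).trans (congrArg (Y.smul g) (hs x).symm))
    · exact (hs _).trans ((kG s g x).trans (congrArg (Y.smul g) (hs x).symm))
  · funext x
    exact (H'.trans K').apply_zero x
  · funext x
    exact (H'.trans K').apply_one x

theorem GHtp.comp_left {f g : toLC X.und ⟶ toLC Y.und} (h : GHtp (X := X) (Y := Y) f g)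
    {k : toLC W.und ⟶ toLC X.und} (hk : Eqv (X := W) (Y := X) k) :
    GHtp (X := W) (Y := Y) (k ≫ f) (k ≫ g) := by
  obtain ⟨H, ⟨⟨hc, hi⟩, hG⟩, h0, h1⟩ := h
  refine ⟨fun t x => H t (app k x), ⟨⟨?_, ?_⟩, ?_⟩, ?_, ?_⟩
  · exact hc.comp (continuous_fst.prodMk ((continuous_app k).comp continuous_snd))
  · intro t
    change H t (app k ∞) = ∞
    rw [app_infty, hi]
  · intro t g x
    change H t (app k (W.smul g x)) = _
    rw [hk, hG]
  · funext x
    change H 0 (app k x) = _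
    rw [h0, app_comp]
  · funext x
    change H 1 (app k x) = _
    rw [h1, app_comp]

theorem GHtp.comp_right {f g : toLC X.und ⟶ toLC Y.und} (h : GHtp (X := X) (Y := Y) f g)
    {k : toLC Y.und ⟶ toLC Z.und} (hk : Eqv (X := Y) (Y := Z) k) :
    GHtp (X := X) (Y := Z) (f ≫ k) (g ≫ k) := by
  obtain ⟨H, ⟨⟨hc, hi⟩, hG⟩, h0, h1⟩ := h
  refine ⟨fun t x => app k (H t x), ⟨⟨?_, ?_⟩, ?_⟩, ?_, ?_⟩
  · exact (continuous_app k).comp hc
  · intro t
    change app k (H t ∞) = ∞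
    rw [hi, app_infty]
  · intro t g x
    change app k (H t (X.smul g x)) = _
    rw [hG, hk]
  · funext x
    change app k (H 0 x) = _
    rw [h0, app_comp]
  · funext x
    change app k (H 1 x) = _
    rw [h1, app_comp]

theorem zero_comp' (k : toLC Y.und ⟶ toLC Z.und) :
    (0 : toLC X.und ⟶ toLC Y.und) ≫ k = (0 : toLC X.und ⟶ toLC Z.und) := by
  apply hom_ext'
  intro x
  rw [app_comp, app_zero, app_infty, app_zero]

theorem comp_zero' (k : toLC X.und ⟶ toLC Y.und) :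
    k ≫ (0 : toLC Y.und ⟶ toLC Z.und) = (0 : toLC X.und ⟶ toLC Z.und) := by
  apply hom_ext'
  intro x
  rw [app_comp, app_zero, app_zero]

end htpy

/-! ### the maps `y ↦ (b, y)` -/

section inj

variable {B B' X Y Z : GSpace G}

/-- `Y⁺ → (B × Y)⁺`, `y ↦ (b, y)` -/
def inj (B : GSpace G) (b : B.carrier) (Y : GSpace G) : toLC Y.und ⟶ toLC (B.prod Y).und :=
  homMk (X := toLC Y.und) (Y := toLC (B.prod Y).und)
    (fun y => LC.smash (b : OnePoint B.carrier) y)
    (continuous_smash.comp (continuous_const.prodMk continuous_id)) (smash_infty_right _)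

theorem app_inj (b : B.carrier) (y : Y.und.Pt) :
    app (inj B b Y) y = LC.smash (b : OnePoint B.carrier) y := rfl

/-- `b` is a fixed point -/
abbrev Fixd (B : GSpace G) (b : B.carrier) : Prop := ∀ g : G, g • b = b

theorem eqv_inj {b : B.carrier} (hb : Fixd B b) : Eqv (X := Y) (Y := B.prod Y) (inj B b Y) := by
  intro g y
  rw [app_inj, app_inj, smul_prod, smul_coe, hb]

/-- the map `B × f` -/
abbrev wl (B : GSpace G) (f : toLC X.und ⟶ toLC Y.und) :
    toLC (B.prod X).und ⟶ toLC (B.prod Y).und :=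
  (toLC B.und ◁ f : toLC B.und ⊗ toLC X.und ⟶ toLC B.und ⊗ toLC Y.und)

/-- the map `f × B` -/
abbrev wr (f : toLC X.und ⟶ toLC Y.und) (B : GSpace G) :
    toLC (X.prod B).und ⟶ toLC (Y.prod B).und :=
  (f ▷ toLC B.und : toLC X.und ⊗ toLC B.und ⟶ toLC Y.und ⊗ toLC B.und)

theorem app_wl (f : toLC X.und ⟶ toLC Y.und) (b : B.und.Pt) (x : X.und.Pt) :
    app (wl B f) (LC.smash b x) = LC.smash b (app f x) :=
  app_whiskerLeft_smash _ _ _ _

theorem app_wr (f : toLC X.und ⟶ toLC Y.und) (b : B.und.Pt) (x : X.und.Pt) :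
    app (wr f B) (LC.smash x b) = LC.smash (app f x) b :=
  app_whiskerRight_smash _ _ _ _

theorem eqv_wl {f : toLC X.und ⟶ toLC Y.und} (hf : Eqv (X := X) (Y := Y) f) :
    Eqv (X := B.prod X) (Y := B.prod Y) (wl B f) := by
  intro g p
  obtain ⟨b, x, rfl⟩ := smash_surjective (X := B.carrier) (Y := X.carrier) p
  rw [smul_prod, app_wl, app_wl, smul_prod, hf]

theorem eqv_wr {f : toLC X.und ⟶ toLC Y.und} (hf : Eqv (X := X) (Y := Y) f) :
    Eqv (X := X.prod B) (Y := Y.prod B) (wr f B) := by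
  intro g p
  obtain ⟨x, b, rfl⟩ := smash_surjective (X := X.carrier) (Y := B.carrier) p
  rw [smul_prod, app_wr, app_wr, smul_prod, hf]

theorem inj_comp_wl (b : B.carrier) (f : toLC X.und ⟶ toLC Y.und) :
    inj B b X ≫ wl B f = f ≫ inj B b Y := by
  apply hom_ext'
  intro x
  rw [app_comp, app_comp, app_inj, app_inj, app_wl]

theorem inj_comp_wr (b : B.carrier) (b' : B'.carrier) (f : toLC B.und ⟶ toLC B'.und)
    (hb : app f (b : OnePoint B.carrier) = (b' : OnePoint B'.carrier)) :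
    inj B b X ≫ wr f X = inj B' b' X := by
  apply hom_ext'
  intro x
  rw [app_comp, app_inj, app_inj, app_wr, hb]

/-- The map `y ↦ (b, y)` is `G`-null-homotopic. -/
def NN (B : GSpace G) (b : B.carrier) (Y : GSpace G) : Prop :=
  GHtp (X := Y) (Y := B.prod Y) (inj B b Y) 0

/-- `NN` passes to homotopy retracts. -/
theorem NN.of_retract {b : B.carrier} (hb : Fixd B b) (h : NN B b X)
    {f : toLC X.und ⟶ toLC Y.und} {g : toLC Y.und ⟶ toLC X.und}
    (hf : Eqv (X := X) (Y := Y) f) (hg : Eqv (X := Y) (Y := X) g)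
    (hgf : GHtp (X := Y) (Y := Y) (g ≫ f) (𝟙 _)) : NN B b Y := by
  have h1 : GHtp (X := Y) (Y := B.prod Y) (inj B b Y) ((g ≫ f) ≫ inj B b Y) := by
    have := hgf.symm.comp_right (Z := B.prod Y) (k := inj B b Y) (eqv_inj hb)
    rwa [Category.id_comp] at this
  have h2 : GHtp (X := Y) (Y := B.prod Y) (g ≫ inj B b X ≫ wl B f) 0 := by
    have := (h.comp_right (Z := B.prod Y) (k := wl B f) (eqv_wl hf)).comp_left (W := Y) (k := g) hg
    rwa [zero_comp', comp_zero'] at this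
  rw [inj_comp_wl, ← Category.assoc] at h2
  exact h1.trans h2

theorem NN.of_ghequiv {b : B.carrier} (hb : Fixd B b) (h : NN B b X) (e : GHEquiv X Y) :
    NN B b Y := by
  obtain ⟨f, g, hf, hg, h1, h2⟩ := e
  exact h.of_retract hb (f := toHom f) (g := toHom g) hf hg h2

/-- change of `B` -/
theorem NN.mapB {b : B.carrier} {b' : B'.carrier} (h : NN B b X)
    {f : toLC B.und ⟶ toLC B'.und} (hf : Eqv (X := B) (Y := B') f)
    (hb : app f (b : OnePoint B.carrier) = (b' : OnePoint B'.carrier)) : NN B' b' X := by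
  have := h.comp_right (Z := B'.prod X) (k := wr f X) (eqv_wr hf)
  rwa [inj_comp_wr b b' f hb, zero_comp'] at this

/-- If the identity of `X` is null-homotopic, so is every `inj`. -/
theorem NN.of_contractible {b : B.carrier} (hb : Fixd B b)
    (h : GHtp (X := X) (Y := X) (𝟙 _) 0) : NN B b X := by
  have := h.comp_right (Z := B.prod X) (k := inj B b X) (eqv_inj hb)
  rwa [Category.id_comp, zero_comp'] at this

end inj

/-! ### extensions -/

section ext

variable {A B C : GSpace G} {i : Map A.und B.und} {q : Map B.und C.und}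

theorem isQuotientMap_of_isQuot (hq : IsQuot i q) : IsQuotientMap q.toFun :=
  (IsClosedMap.isQuotientMap (Continuous.isClosedMap q.cont) q.cont hq.1)

/-- factorisation through the quotient -/
theorem exists_factor {Z : GSpace G} (hqG : IsGMap (X := B) (Y := C) q.toFun) (hq : IsQuot i q)
    {ψ : toLC B.und ⟶ toLC Z.und} (hψ : Eqv (X := B) (Y := Z) ψ)
    (h : ∀ a, app ψ (i.toFun a) = ∞) :
    ∃ g : toLC C.und ⟶ toLC Z.und, Eqv (X := C) (Y := Z) g ∧ toHom q ≫ g = ψ := by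
  have hfac : ∀ b b' : B.und.Pt, q.toFun b = q.toFun b' → app ψ b = app ψ b' := by
    intro b b' hb
    rcases (hq.2 b b').1 hb with h1 | ⟨⟨a, rfl⟩, ⟨a', rfl⟩⟩
    · rw [h1]
    · rw [h, h]
  let γ : C.und.Pt → Z.und.Pt := fun c => app ψ (hq.1 c).choose
  have hγ : ∀ b, γ (q.toFun b) = app ψ b := fun b => hfac _ _ (hq.1 (q.toFun b)).choose_spec
  have hγc : Continuous γ := by
    rw [(isQuotientMap_of_isQuot hq).continuous_iff]
    have : γ ∘ q.toFun = app ψ := funext hγ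
    rw [this]
    exact continuous_app ψ
  refine ⟨homMk (X := toLC C.und) (Y := toLC Z.und) γ hγc ?_, ?_, ?_⟩
  · rw [← q.map_infty, hγ, app_infty]
  · intro g c
    obtain ⟨b, rfl⟩ := hq.1 c
    change γ (C.smul g (q.toFun b)) = Z.smul g (γ (q.toFun b))
    rw [← hqG, hγ, hγ, hψ]
  · apply hom_ext'
    intro b
    exact hγ b

/-- **Extensions.** -/
theorem NN.ext {B₁ B₂ : GSpace G} {b₁ : B₁.carrier} {b₂ : B₂.carrier} (hb₁ : Fixd B₁ b₁)
    (hb₂ : Fixd B₂ b₂) (hiG : IsGMap (X := A) (Y := B) i.toFun)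
    (hqG : IsGMap (X := B) (Y := C) q.toFun) (hi : GCofib (A := A) (B := B) i) (hq : IsQuot i q)
    (hA : NN B₁ b₁ A) (hC : NN B₂ b₂ C) : NN (B₂.prod B₁) (b₂, b₁) B := by
  -- the null-homotopy on `A`
  have h1 : GHtp (X := A) (Y := B₁.prod B) (toHom i ≫ inj B₁ b₁ B) 0 := by
    have := hA.comp_right (Z := B₁.prod B) (k := wl B₁ (toHom i)) (eqv_wl hiG)
    rwa [inj_comp_wl, zero_comp'] at this
  obtain ⟨H, hH, hH0, hH1⟩ := h1
  obtain ⟨K, hK, hK0, hK1⟩ := hi (B₁.prod B) (ofHom (inj B₁ b₁ B)) H (eqv_inj hb₁) hH hH0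
  let ψ : toLC B.und ⟶ toLC (B₁.prod B).und :=
    homMk (X := toLC B.und) (Y := toLC (B₁.prod B).und) (K 1)
      (hK.1.1.comp (continuous_const.prodMk continuous_id)) (hK.1.2 1)
  have hψG : Eqv (X := B) (Y := B₁.prod B) ψ := hK.2 1
  have h2 : GHtp (X := B) (Y := B₁.prod B) (inj B₁ b₁ B) ψ := ⟨K, hK, hK0, rfl⟩
  obtain ⟨g, hg, hgψ⟩ := exists_factor hqG hq hψG (fun a => by
    change K 1 (i.toFun a) = ∞
    exact (congrFun (hK1 1) a).trans (congrFun hH1 a))
  -- `(b₂, b₁, y) ≃ (b₂, ψ y) = (1 × g) (b₂, q y) ≃ ∞`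
  have h3 : GHtp (X := B) (Y := B₂.prod (B₁.prod B)) (inj B₁ b₁ B ≫ inj B₂ b₂ (B₁.prod B))
      (ψ ≫ inj B₂ b₂ (B₁.prod B)) :=
    h2.comp_right (Z := B₂.prod (B₁.prod B)) (eqv_inj hb₂)
  have h4 : GHtp (X := B) (Y := B₂.prod (B₁.prod B)) (ψ ≫ inj B₂ b₂ (B₁.prod B)) 0 := by
    have := (hC.comp_right (Z := B₂.prod (B₁.prod B)) (k := wl B₂ g) (eqv_wl hg)).comp_left
      (W := B) (k := toHom q) hqG
    rwa [inj_comp_wl, zero_comp', comp_zero', ← Category.assoc, hgψ] at this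
  have h5 := h3.trans h4
  -- reassociate
  let e : toLC (B₂.prod (B₁.prod B)).und ⟶ toLC ((B₂.prod B₁).prod B).und :=
    (α_ (toLC B₂.und) (toLC B₁.und) (toLC B.und)).inv
  have he : Eqv (X := B₂.prod (B₁.prod B)) (Y := (B₂.prod B₁).prod B) e := by
    intro g p
    obtain ⟨x, p, rfl⟩ := smash_surjective (X := B₂.carrier) (Y := (B₁.prod B).carrier) p
    obtain ⟨y, z, rfl⟩ := smash_surjective (X := B₁.carrier) (Y := B.carrier) p
    have ha : ∀ (x : B₂.und.Pt) (y : B₁.und.Pt) (z : B.und.Pt),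
        app e (LC.smash x (LC.smash y z)) = LC.smash (LC.smash x y) z :=
      fun x y z => app_associator_inv_smash (toLC B₂.und) (toLC B₁.und) (toLC B.und) x y z
    refine (congrArg (app e) ((smul_prod B₂ (B₁.prod B) g x _).trans
      (congrArg (LC.smash (B₂.smul g x)) (smul_prod B₁ B g y z)))).trans ?_
    refine (ha _ _ _).trans ?_
    exact ((congrArg (((B₂.prod B₁).prod B).smul g) (ha x y z)).trans
      ((smul_prod (B₂.prod B₁) B g _ z).trans
        (congrArg (fun p => LC.smash p (B.smul g z)) (smul_prod B₂ B₁ g x y)))).symm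
  have h6 := h5.comp_right (Z := (B₂.prod B₁).prod B) (k := e) he
  have h7 : (inj B₁ b₁ B ≫ inj B₂ b₂ (B₁.prod B)) ≫ e = inj (B₂.prod B₁) (b₂, b₁) B := by
    apply hom_ext'
    intro y
    rw [app_comp, app_comp, app_inj, app_inj]
    exact app_associator_inv_smash (toLC B₂.und) (toLC B₁.und) (toLC B.und) _ _ y
  rw [h7, zero_comp'] at h6
  exact h6

end ext

end Vale.Agent.P241.H175
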