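import Vale.Agent.P241.H175.GH

/-!
# P241: the `G`-space `X# = {(x, t) ∈ X × [0, ∞) | t = 0 or x is a fixed point}`

* `sharp X`, its inclusion `mι X : X# ⟶ X × [0, ∞)`, `mem_range_mι`, `exists_rep`;
* `sharpHom f hf : X# ⟶ Y#`, `ghtp_sharp`, `ghequiv_sharp`;
* `gcofib_sharp`, `isQuot_sharp` : `#` preserves cofibrations and their quotients.
-/

open CategoryTheory MonoidalCategory OnePoint Topology

namespace Vale.Agent.P241.H175

open Vale.Agent.P251 Vale.Agent.P251.St Vale.Agent.P251.G Vale.Agent.P251.G.LC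
open Vale.Agent.P241.St Vale.Agent.P241.H486

variable {G : Type} [Group G] {X Y Z A B C : GSpace G}

/-! ### definition -/

/-- the set `{(x, t) | t = 0 or x is a fixed point}` -/
def sharpSet (X : GSpace G) : Set (X.carrier × NNReal) := {p | p.2 = 0 ∨ ∀ g : G, g • p.1 = p.1}

theorem isClosed_sharpSet (X : GSpace G) : IsClosed (sharpSet X) := by
  have h : sharpSet X = {p : X.carrier × NNReal | p.2 = 0} ∪
      ⋂ g : G, {p : X.carrier × NNReal | g • p.1 = p.1} := by
    ext p
    simp [sharpSet]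
  rw [h]
  exact (isClosed_eq continuous_snd continuous_const).union
    (isClosed_iInter fun g => isClosed_eq ((continuous_const_smul g).comp continuous_fst)
      continuous_fst)

/-- The `G`-space `X#`. -/
def sharp (X : GSpace G) : GSpace G :=
  gsub (cylG X Hh) (sharpSet X) (isClosed_sharpSet X) (by
    rintro g ⟨x, t⟩ (h | h)
    · exact Or.inl h
    · refine Or.inr fun g' => ?_
      change g' • g • x = g • x
      have h' : ∀ g : G, g • x = x := h
      rw [h', h'])

/-- the inclusion `X# ⟶ X × [0, ∞)` -/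
def mι (X : GSpace G) : toLC (sharp X).und ⟶ toLC X.und ⊗ HH :=
  subι (Y := toLC X.und ⊗ HH) (isClosed_sharpSet X)

theorem injective_mι (X : GSpace G) : Function.Injective (app (mι X)) :=
  injective_subι (Y := toLC X.und ⊗ HH) (isClosed_sharpSet X)

theorem mem_range_mι (x : X.und.Pt) (t : NNReal) :
    LC.smash x (t : OnePoint NNReal) ∈ Set.range (app (mι X)) ↔
      t = 0 ∨ ∀ g : G, X.smul g x = x := by
  refine (mem_range_subι (Y := toLC X.und ⊗ HH) (isClosed_sharpSet X) _).trans ?_
  induction x using OnePoint.rec with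
  | infty =>
    refine ⟨fun _ => Or.inr fun g => rfl, fun _ z hz => ?_⟩
    exact absurd hz (OnePoint.infty_ne_coe _)
  | coe x =>
    constructor
    · intro h
      refine (h (x, t) rfl).imp (fun h1 => h1) fun h1 g => ?_
      exact congrArg _ (h1 g)
    · intro h z hz
      have hz' : (x, t) = z := OnePoint.coe_injective hz
      subst hz'
      exact h.imp (fun h1 => h1) fun h1 g => OnePoint.coe_injective (h1 g)

theorem exists_rep (p : (sharp X).und.Pt) : ∃ (x : X.und.Pt) (t : NNReal),
    app (mι X) p = LC.smash x (t : OnePoint NNReal) ∧ (t = 0 ∨ ∀ g : G, X.smul g x = x) := by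
  obtain ⟨x, t, h⟩ := smash_coe_surjective (X := X.carrier) (Y := NNReal) (app (mι X) p)
  exact ⟨x, t, h.symm, (mem_range_mι x t).1 ⟨p, h.symm⟩⟩

theorem exists_of_rep (x : X.und.Pt) (t : NNReal) (h : t = 0 ∨ ∀ g : G, X.smul g x = x) :
    ∃ p : (sharp X).und.Pt, app (mι X) p = LC.smash x (t : OnePoint NNReal) :=
  (mem_range_mι x t).2 h

theorem smul_mι (g : G) (p : (sharp X).und.Pt) :
    app (mι X) ((sharp X).smul g p) = (cylG X Hh).smul g (app (mι X) p) := by
  induction p using OnePoint.rec with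
  | infty => rfl
  | coe p => rfl

theorem smul_rep {g : G} {p : (sharp X).und.Pt} {x : X.und.Pt} {t : NNReal}
    (h : app (mι X) p = LC.smash x (t : OnePoint NNReal)) :
    app (mι X) ((sharp X).smul g p) = LC.smash (X.smul g x) (t : OnePoint NNReal) := by
  rw [smul_mι, h]
  exact smul_smash X Hh g x _

/-! ### functoriality -/

theorem smul_of_fixed {f : toLC X.und ⟶ toLC Y.und} (hf : Eqv (X := X) (Y := Y) f) {x : X.und.Pt}
    (h : ∀ g : G, X.smul g x = x) (g : G) : Y.smul g (app f x) = app f x := by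
  rw [← hf, h]

theorem sharp_range (f : toLC X.und ⟶ toLC Y.und) (hf : Eqv (X := X) (Y := Y) f)
    (p : (sharp X).und.Pt) : app (mι X ≫ f ▷ HH) p ∈ Set.range (app (mι Y)) := by
  obtain ⟨x, t, h, h'⟩ := exists_rep p
  rw [app_comp, h, app_whiskerRight_smash]
  exact (mem_range_mι _ t).2 (h'.imp id fun h1 => smul_of_fixed hf h1)

/-- the map `f#` -/
noncomputable def sharpHom (f : toLC X.und ⟶ toLC Y.und) (hf : Eqv (X := X) (Y := Y) f) :
    toLC (sharp X).und ⟶ toLC (sharp Y).und :=
  factor (mι Y) (injective_mι Y) (mι X ≫ f ▷ HH) (sharp_range f hf)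

theorem app_sharpHom {f : toLC X.und ⟶ toLC Y.und} (hf : Eqv (X := X) (Y := Y) f)
    {p : (sharp X).und.Pt} {x : X.und.Pt} {t : NNReal}
    (h : app (mι X) p = LC.smash x (t : OnePoint NNReal)) :
    app (mι Y) (app (sharpHom f hf) p) = LC.smash (app f x) (t : OnePoint NNReal) := by
  unfold sharpHom
  rw [app_factor, app_comp, h, app_whiskerRight_smash]

theorem eqv_sharpHom {f : toLC X.und ⟶ toLC Y.und} (hf : Eqv (X := X) (Y := Y) f) :
    Eqv (X := sharp X) (Y := sharp Y) (sharpHom f hf) := by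
  intro g p
  obtain ⟨x, t, h, -⟩ := exists_rep p
  apply injective_mι
  rw [app_sharpHom hf (smul_rep (g := g) h), smul_rep (app_sharpHom hf h), hf]

theorem sharpHom_comp {f : toLC X.und ⟶ toLC Y.und} (hf : Eqv (X := X) (Y := Y) f)
    {g : toLC Y.und ⟶ toLC Z.und} (hg : Eqv (X := Y) (Y := Z) g) :
    sharpHom (X := X) (Y := Z) (f ≫ g) (Eqv.comp hf hg) = sharpHom f hf ≫ sharpHom g hg := by
  apply hom_ext'
  intro p
  obtain ⟨x, t, h, -⟩ := exists_rep (X := X) p
  apply injective_mι
  rw [app_sharpHom (Eqv.comp hf hg) h, app_comp, app_comp, app_sharpHom hg (app_sharpHom hf h)]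

theorem sharpHom_id : sharpHom (𝟙 (toLC X.und)) (Eqv.id (X := X)) = 𝟙 _ := by
  apply hom_ext'
  intro p
  obtain ⟨x, t, h, -⟩ := exists_rep (X := X) p
  apply injective_mι
  rw [app_sharpHom (Eqv.id (X := X)) h, app_id, app_id, h]

theorem app_shuf_coe (B C : LC) (b : OnePoint B) (c : OnePoint C) (t : unitInterval) :
    app (shuf B C).hom (LC.smash (LC.smash b c) (t : OnePoint unitInterval)) =
      LC.smash (LC.smash b (t : OnePoint unitInterval)) c := app_shuf B C b c _

/-- `#` of a map with a parameter in the interval -/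
theorem app_sharpII (k : toLC X.und ⊗ II ⟶ toLC Y.und) {p : (sharp X).und.Pt} {x : X.und.Pt}
    {t : NNReal} (h : app (mι X) p = LC.smash x (t : OnePoint NNReal)) (s : unitInterval) :
    app (mι X ▷ II ≫ (shuf (toLC X.und) HH).hom ≫ k ▷ HH)
      (LC.smash p (s : OnePoint unitInterval)) =
        LC.smash (app k (LC.smash x (s : OnePoint unitInterval))) (t : OnePoint NNReal) := by
  rw [app_comp, app_comp, app_whiskerRight_smash, h, app_shuf_coe, app_whiskerRight_smash]

theorem ghtp_sharp {f g : toLC X.und ⟶ toLC Y.und} (hf : Eqv (X := X) (Y := Y) f)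
    (hg : Eqv (X := X) (Y := Y) g) (hfg : GHtp (X := X) (Y := Y) f g) :
    GHtp (X := sharp X) (Y := sharp Y) (sharpHom f hf) (sharpHom g hg) := by
  obtain ⟨H, ⟨hH, hG⟩, h0, h1⟩ := hfg
  let k : toLC X.und ⊗ II ⟶ toLC Y.und := htpyMap H hH
  have hk : ∀ (x : X.und.Pt) (s : unitInterval),
      app k (LC.smash x (s : OnePoint unitInterval)) = H s x := fun x s => app_htpyMap H hH x s
  have hr : ∀ w, app (mι X ▷ II ≫ (shuf (toLC X.und) HH).hom ≫ k ▷ HH) w ∈
      Set.range (app (mι Y)) := by
    intro w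
    obtain ⟨p, s, rfl⟩ := smash_coe_surjective (X := (sharp X).carrier) (Y := unitInterval) w
    obtain ⟨x, t, h, h'⟩ := exists_rep (X := X) p
    have e := app_sharpII k h s
    refine (congrArg (· ∈ Set.range (app (mι Y))) e).mpr ?_
    refine (mem_range_mι _ t).2 (h'.imp id fun h1 g => ?_)
    rw [hk, ← hG, h1]
  let K : toLC (sharp X).und ⊗ II ⟶ toLC (sharp Y).und := factor (mι Y) (injective_mι Y) _ hr
  have hK : ∀ (p : (sharp X).und.Pt) (x : X.und.Pt) (t : NNReal) (s : unitInterval),
      app (mι X) p = LC.smash x (t : OnePoint NNReal) →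
      app (mι Y) (app K (LC.smash p (s : OnePoint unitInterval))) =
        LC.smash (H s x) (t : OnePoint NNReal) := by
    intro p x t s h
    refine (app_factor (mι Y) (injective_mι Y) _ hr _).trans ?_
    refine (app_sharpII k h s).trans ?_
    rw [hk]
  refine ⟨fun s p => app K (LC.smash p (s : OnePoint unitInterval)),
    ⟨isHtpy_of_hom (X := (sharp X).und) (Y := (sharp Y).und) K, ?_⟩, ?_, ?_⟩
  · intro s g p
    obtain ⟨x, t, h, -⟩ := exists_rep (X := X) p
    apply injective_mι
    rw [hK _ _ _ s (smul_rep (g := g) h), smul_rep (hK _ _ _ s h), hG]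
  · funext p
    obtain ⟨x, t, h, -⟩ := exists_rep (X := X) p
    apply injective_mι
    rw [hK _ _ _ 0 h, app_sharpHom hf h, h0]
  · funext p
    obtain ⟨x, t, h, -⟩ := exists_rep (X := X) p
    apply injective_mι
    rw [hK _ _ _ 1 h, app_sharpHom hg h, h1]

/-- `#` preserves `G`-homotopy equivalences. -/
theorem ghequiv_sharp (h : GHEquiv X Y) : GHEquiv (sharp X) (sharp Y) := by
  obtain ⟨f, g, hf, hg, h1, h2⟩ := h
  have hf : Eqv (X := X) (Y := Y) (toHom f) := hf
  have hg : Eqv (X := Y) (Y := X) (toHom g) := hg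
  have h1 : GHtp (X := X) (Y := X) (toHom f ≫ toHom g) (𝟙 _) := h1
  have h2 : GHtp (X := Y) (Y := Y) (toHom g ≫ toHom f) (𝟙 _) := h2
  have h3 := ghtp_sharp (Eqv.comp hf hg) Eqv.id h1
  have h4 := ghtp_sharp (Eqv.comp hg hf) Eqv.id h2
  rw [sharpHom_comp hf hg, sharpHom_id] at h3
  rw [sharpHom_comp hg hf, sharpHom_id] at h4
  exact ⟨ofHom (sharpHom (toHom f) hf), ofHom (sharpHom (toHom g) hg), eqv_sharpHom hf,
    eqv_sharpHom hg, h3, h4⟩

/-! ### cofibrations -/

theorem fixed_of_injective {i : toLC A.und ⟶ toLC B.und} (hi : Eqv (X := A) (Y := B) i)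
    (hinj : Function.Injective (app i)) {a : A.und.Pt} (h : ∀ g : G, B.smul g (app i a) = app i a)
    (g : G) : A.smul g a = a :=
  hinj ((hi g a).trans (h g))

theorem injective_sharpHom {i : toLC A.und ⟶ toLC B.und} (hi : Eqv (X := A) (Y := B) i)
    (hinj : Function.Injective (app i)) : Function.Injective (app (sharpHom i hi)) := by
  intro p p' h
  obtain ⟨x, t, hx, -⟩ := exists_rep (X := A) p
  obtain ⟨x', t', hx', -⟩ := exists_rep (X := A) p'
  have h1 := congrArg (app (mι B)) h
  rw [app_sharpHom hi hx, app_sharpHom hi hx'] at h1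
  apply injective_mι
  rw [hx, hx']
  obtain ⟨h2, h3⟩ := smash_coe_eq_iff.mp h1
  refine smash_coe_eq_iff.mpr ⟨hinj h2, h3.imp (fun h4 => ?_) id⟩
  exact eq_infty_of_app_eq_infty hinj h4

theorem mem_range_sharpHom {i : toLC A.und ⟶ toLC B.und} (hi : Eqv (X := A) (Y := B) i)
    (hinj : Function.Injective (app i)) {p : (sharp B).und.Pt} {b : B.und.Pt} {t : NNReal}
    (h : app (mι B) p = LC.smash b (t : OnePoint NNReal)) (hb : b ∈ Set.range (app i)) :
    p ∈ Set.range (app (sharpHom i hi)) := by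
  obtain ⟨a, rfl⟩ := hb
  obtain ⟨p', hp'⟩ := exists_of_rep (X := A) a t
    (((mem_range_mι _ t).1 ⟨p, h⟩).imp id fun h1 => fixed_of_injective hi hinj h1)
  refine ⟨p', injective_mι B ?_⟩
  rw [app_sharpHom hi hp', h]

theorem range_of_mem_sharpHom {i : toLC A.und ⟶ toLC B.und} (hi : Eqv (X := A) (Y := B) i)
    {p : (sharp B).und.Pt} {b : B.und.Pt} {t : NNReal}
    (h : app (mι B) p = LC.smash b (t : OnePoint NNReal))
    (hp : p ∈ Set.range (app (sharpHom i hi))) : b ∈ Set.range (app i) := by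
  obtain ⟨p', rfl⟩ := hp
  obtain ⟨x, s, hx, -⟩ := exists_rep (X := A) p'
  rw [app_sharpHom hi hx] at h
  exact ⟨x, (smash_coe_eq_iff.mp h).1⟩

/-- `#` preserves `G`-cofibrations. -/
theorem gcofib_sharp {i : Map A.und B.und} (hG : Eqv (X := A) (Y := B) (toHom i))
    (hi : GCofib (A := A) (B := B) i) :
    GCofib (A := sharp A) (B := sharp B) (ofHom (sharpHom (toHom i) hG)) := by
  obtain ⟨r, hr, hrG⟩ := exists_isRetr_of_gcofib hG hi
  have hinj : Function.Injective (app (toHom i)) := injective_of_gcofib hi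
  -- the retraction of `B × [0, ∞) × I`
  let R : toLC (sharp B).und ⊗ II ⟶ (toLC B.und ⊗ HH) ⊗ II :=
    mι B ▷ II ≫ (shuf (toLC B.und) HH).hom ≫ r ▷ HH ≫ (shuf (toLC B.und) HH).inv
  have hR : ∀ (p : (sharp B).und.Pt) (b b' : B.und.Pt) (t : NNReal) (s s' : unitInterval),
      app (mι B) p = LC.smash b (t : OnePoint NNReal) →
      app r (LC.smash b (s : OnePoint unitInterval)) = LC.smash b' (s' : OnePoint unitInterval) →
      app R (LC.smash p (s : OnePoint unitInterval)) =
        LC.smash (LC.smash b' (t : OnePoint NNReal)) (s' : OnePoint unitInterval) := by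
    intro p b b' t s s' h1 h2
    change app (mι B ▷ II ≫ (shuf (toLC B.und) HH).hom ≫ r ▷ HH ≫ (shuf (toLC B.und) HH).inv)
      (LC.smash p (s : OnePoint unitInterval)) = _
    rw [app_comp, app_comp, app_comp, app_whiskerRight_smash, h1, app_shuf_coe,
      app_whiskerRight_smash]
    refine (congrArg (fun z => app (shuf (toLC B.und) HH).inv (LC.smash z (t : OnePoint NNReal)))
      h2).trans ?_
    exact app_shuf_inv (toLC B.und) HH b' (t : OnePoint NNReal) (s' : OnePoint unitInterval)
  have hfix : ∀ (b b' : B.und.Pt) (s s' : unitInterval), (∀ g : G, B.smul g b = b) →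
      app r (LC.smash b (s : OnePoint unitInterval)) = LC.smash b' (s' : OnePoint unitInterval) →
      ∀ g : G, B.smul g b' = b' := by
    intro b b' s s' hb h g
    have h1 := hrG g b s
    rw [hb, h] at h1
    have h2 := h1.trans (smul_smash B ⟨unitInterval⟩ g b' _)
    exact (smash_coe_eq_iff.mp h2).1.symm
  have hrange : ∀ w, app R w ∈ Set.range (app (mι B ▷ II)) := by
    intro w
    obtain ⟨p, s, rfl⟩ := smash_coe_surjective (X := (sharp B).carrier) (Y := unitInterval) w
    obtain ⟨b, t, hb, hb'⟩ := exists_rep (X := B) p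
    obtain ⟨b', s', h1, -⟩ := hr.range (LC.smash b (s : OnePoint unitInterval))
    obtain ⟨p', hp'⟩ := exists_of_rep (X := B) b' t (hb'.imp id fun h2 => hfix _ _ _ _ h2 h1)
    refine ⟨LC.smash p' (s' : OnePoint unitInterval), ?_⟩
    rw [app_whiskerRight_smash, hp']
    exact (hR p b b' t s s' hb h1).symm
  let r' : toLC (sharp B).und ⊗ II ⟶ toLC (sharp B).und ⊗ II :=
    factor (mι B ▷ II) (injective_whiskerRight' (injective_mι B) II) R hrange
  have hr' : ∀ (p p' : (sharp B).und.Pt) (b b' : B.und.Pt) (t : NNReal) (s s' : unitInterval),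
      app (mι B) p = LC.smash b (t : OnePoint NNReal) →
      app (mι B) p' = LC.smash b' (t : OnePoint NNReal) →
      app r (LC.smash b (s : OnePoint unitInterval)) = LC.smash b' (s' : OnePoint unitInterval) →
      app r' (LC.smash p (s : OnePoint unitInterval)) =
        LC.smash p' (s' : OnePoint unitInterval) := by
    intro p p' b b' t s s' h1 h2 h3
    apply injective_whiskerRight' (injective_mι B) II
    refine (app_factor (mι B ▷ II) _ R hrange _).trans ?_
    rw [app_whiskerRight_smash, h2]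
    exact hR p b b' t s s' h1 h3
  refine gcofib_of_isRetr (eqv_sharpHom hG) (injective_sharpHom hG hinj) (r := r') ⟨?_, ?_, ?_⟩ ?_
  · intro p
    obtain ⟨b, t, hb, -⟩ := exists_rep (X := B) p
    exact hr' p p b b t 0 0 hb hb (hr.zero b)
  · intro p hp s
    obtain ⟨b, t, hb, -⟩ := exists_rep (X := B) p
    exact hr' p p b b t s s hb hb (hr.mem b (range_of_mem_sharpHom hG hb hp) s)
  · intro w
    obtain ⟨p, s, rfl⟩ := smash_coe_surjective (X := (sharp B).carrier) (Y := unitInterval) w
    obtain ⟨b, t, hb, hb'⟩ := exists_rep (X := B) p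
    obtain ⟨b', s', h1, h2⟩ := hr.range (LC.smash b (s : OnePoint unitInterval))
    obtain ⟨p', hp'⟩ := exists_of_rep (X := B) b' t (hb'.imp id fun h2 => hfix _ _ _ _ h2 h1)
    exact ⟨p', s', hr' p p' b b' t s s' hb hp' h1,
      h2.imp id fun h3 => mem_range_sharpHom hG hinj hp' h3⟩
  · intro g p s
    obtain ⟨b, t, hb, hb'⟩ := exists_rep (X := B) p
    obtain ⟨b', s', h1, -⟩ := hr.range (LC.smash b (s : OnePoint unitInterval))
    obtain ⟨p', hp'⟩ := exists_of_rep (X := B) b' t (hb'.imp id fun h2 => hfix _ _ _ _ h2 h1)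
    have h2 : app r (LC.smash (B.smul g b) (s : OnePoint unitInterval)) =
        LC.smash (B.smul g b') (s' : OnePoint unitInterval) :=
      (hrG g b s).trans ((congrArg _ h1).trans (smul_smash B ⟨unitInterval⟩ g b' _))
    refine (hr' _ _ _ _ t s s' (smul_rep (g := g) hb) (smul_rep (g := g) hp') h2).trans ?_
    refine Eq.trans ?_ (congrArg ((cylG (sharp B) ⟨unitInterval⟩).smul g)
      (hr' p p' b b' t s s' hb hp' h1)).symm
    exact (smul_smash (sharp B) ⟨unitInterval⟩ g p' _).symm

/-- `#` preserves quotients. -/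
theorem isQuot_sharp {i : Map A.und B.und} {q : Map B.und C.und}
    (hG : Eqv (X := A) (Y := B) (toHom i)) (hqG : Eqv (X := B) (Y := C) (toHom q))
    (hinj : Function.Injective i.toFun) (hq : IsQuot i q) :
    IsQuot (A := (sharp A).und) (B := (sharp B).und) (C := (sharp C).und)
      (ofHom (sharpHom (toHom i) hG)) (ofHom (sharpHom (toHom q) hqG)) := by
  have hqi : ∀ b : B.und.Pt, b ∈ Set.range i.toFun ↔ app (toHom q) b = ∞ := by
    intro b
    constructor
    · intro hb
      refine Eq.trans ?_ (app_infty (toHom q))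
      exact (hq.2 b ∞).2 (Or.inr ⟨hb, ⟨∞, i.map_infty⟩⟩)
    · intro hb
      rcases (hq.2 b ∞).1 (hb.trans (app_infty (toHom q)).symm) with h1 | h1
      · rw [h1]
        exact ⟨∞, i.map_infty⟩
      · exact h1.1
  constructor
  · intro w
    obtain ⟨c, t, hc, hc'⟩ := exists_rep (X := C) w
    obtain ⟨b, hb⟩ := hq.1 c
    have hb : app (toHom q) b = c := hb
    have key : ∀ b : B.und.Pt, app (toHom q) b = c → (t = 0 ∨ ∀ g : G, B.smul g b = b) →
        ∃ p, app (sharpHom (toHom q) hqG) p = w := by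
      intro b hb h
      obtain ⟨p, hp⟩ := exists_of_rep (X := B) b t h
      refine ⟨p, injective_mι C ?_⟩
      rw [app_sharpHom hqG hp, hc, hb]
    rcases hc' with h0 | hfix
    · exact key b hb (Or.inl h0)
    · by_cases hbi : b ∈ Set.range i.toFun
      · have h1 : c = ∞ := hb.symm.trans ((hqi b).1 hbi)
        refine key ∞ ((app_infty (toHom q)).trans h1.symm) (Or.inr fun g => rfl)
      · refine key b hb (Or.inr fun g => ?_)
        have h1 : q.toFun (B.smul g b) = q.toFun b := by
          refine (hqG g b).trans ?_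
          refine (congrArg (C.smul g) hb).trans ?_
          rw [hfix, ← hb]
          rfl
        rcases (hq.2 _ _).1 h1 with h2 | h2
        · exact h2
        · exact absurd h2.2 hbi
  · intro p p'
    obtain ⟨b, t, hb, hbf⟩ := exists_rep (X := B) p
    obtain ⟨b', t', hb', hbf'⟩ := exists_rep (X := B) p'
    have hr : ∀ (p : (sharp B).und.Pt) (b : B.und.Pt) (t : NNReal),
        app (mι B) p = LC.smash b (t : OnePoint NNReal) →
        (p ∈ Set.range (app (sharpHom (toHom i) hG)) ↔ b ∈ Set.range i.toFun) :=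
      fun p b t h => ⟨range_of_mem_sharpHom hG h, mem_range_sharpHom hG hinj h⟩
    have h0 : app (sharpHom (toHom q) hqG) p = app (sharpHom (toHom q) hqG) p' ↔
        (app (toHom q) b = app (toHom q) b' ∧ (app (toHom q) b = ∞ ∨ t = t')) := by
      rw [← (injective_mι C).eq_iff, app_sharpHom hqG hb, app_sharpHom hqG hb']
      exact smash_coe_eq_iff
    refine h0.trans ?_
    have h1 : p = p' ↔ b = b' ∧ (b = ∞ ∨ t = t') := by
      rw [← (injective_mι B).eq_iff, hb, hb']
      exact smash_coe_eq_iff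
    have h2 : (p = p' ∨ p ∈ Set.range (app (sharpHom (toHom i) hG)) ∧
        p' ∈ Set.range (app (sharpHom (toHom i) hG))) ↔
        ((b = b' ∧ (b = ∞ ∨ t = t')) ∨ (b ∈ Set.range i.toFun ∧ b' ∈ Set.range i.toFun)) := by
      rw [h1, hr p b t hb, hr p' b' t' hb']
    refine Iff.trans ?_ h2.symm
    constructor
    · rintro ⟨h3, h4⟩
      rcases (hq.2 b b').1 h3 with h5 | h5
      · rcases h4 with h4 | h4
        · refine Or.inr ⟨(hqi b).2 h4, (hqi b').2 (h3.symm.trans h4)⟩
        · exact Or.inl ⟨h5, Or.inr h4⟩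
      · exact Or.inr h5
    · rintro (⟨h3, h4⟩ | ⟨h3, h4⟩)
      · refine ⟨by rw [h3], h4.imp (fun h5 => ?_) id⟩
        rw [h5]
        exact app_infty (toHom q)
      · have h5 := (hqi b).1 h3
        exact ⟨h5.trans ((hqi b').1 h4).symm, Or.inl h5⟩

end Vale.Agent.P241.H175
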